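import Mathlib
import Vale.Agent.Lib.P302.helper14.J293.Base

/-!
# P302: pieces of the mask search of the 293-item instance (part 0)
-/

namespace Vale.Agent.Lib.P302.helper14.J293

open Vale.Agent.Lib.P302.helper14 Vale.Agent.Lib.P302.helper8

theorem ok_lay0 : stepOKS rows cap lay0 lay1 = true := by decide +kernel

theorem ok_lay1 : stepOKS rows cap lay1 lay2 = true := by decide +kernel

theorem ok_lay2 : stepOKS rows cap lay2 lay3 = true := by decide +kernel

theorem ok_lay3 : stepOKS rows cap lay3 lay4 = true := by decide +kernel

theorem ok_lay4 : stepOKS rows cap lay4 lay5 = true := by decide +kernel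

theorem ok_lay5 : stepOKS rows cap lay5 lay6 = true := by decide +kernel

theorem ok_lay6 : stepOKS rows cap lay6 lay7 = true := by decide +kernel

theorem ok_lay7 : stepOKS rows cap lay7 lay8 = true := by decide +kernel

theorem ok_lay8 : stepOKS rows cap lay8 lay9 = true := by decide +kernel

theorem ok_lay9 : stepOKS rows cap lay9 lay10 = true := by decide +kernel

theorem ok_lay10 : stepOKS rows cap lay10 lay11 = true := by decide +kernel

theorem ok_lay11 : stepOKS rows cap lay11 lay12 = true := by decide +kernel

theorem ok_lay12 : stepOKS rows cap lay12 lay13 = true := by decide +kernel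

theorem ok_lay13 : stepOKS rows cap lay13 lay14 = true := by decide +kernel

theorem ok_lay14 : stepOKS rows cap lay14 lay15 = true := by decide +kernel

theorem ok_lay15 : stepOKS rows cap lay15 lay16 = true := by decide +kernel

end Vale.Agent.Lib.P302.helper14.J293
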