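import Mathlib
import Vale.Agent.Lib.P302.helper14.J293.Base

/-!
# P302: pieces of the mask search of the 293-item instance (part 2)
-/

namespace Vale.Agent.Lib.P302.helper14.J293

open Vale.Agent.Lib.P302.helper14 Vale.Agent.Lib.P302.helper8

theorem ok_lay18 : stepOKS rows cap lay18 lay19 = true := by decide +kernel

end Vale.Agent.Lib.P302.helper14.J293
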