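import Mathlib
import Vale.Agent.Lib.P302.helper14.J293.Base
import Vale.Agent.Lib.P302.helper14.J293.K8

/-!
# P302: pieces of the mask search of the 293-item instance (part 11)
-/

namespace Vale.Agent.Lib.P302.helper14.J293

open Vale.Agent.Lib.P302.helper14 Vale.Agent.Lib.P302.helper8

theorem ok_lay31 : stepOKS rows cap lay31 lay32 = true := by decide +kernel

theorem ok_lay32 : stepOKS rows cap lay32 lay33 = true := by decide +kernel

theorem ok_lay33 : stepOKS rows cap lay33 lay34 = true := by decide +kernel

theorem ok_lay34 : stepOKS rows cap lay34 lay35 = true := by decide +kernel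

theorem ok_lay35 : stepOKS rows cap lay35 lay36 = true := by decide +kernel

theorem ok_lay36 : stepOKS rows cap lay36 lay37 = true := by decide +kernel

theorem ok_lay37 : stepOKS rows cap lay37 lay38 = true := by decide +kernel

end Vale.Agent.Lib.P302.helper14.J293
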