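import Mathlib
import Vale.Agent.Lib.P302.helper14.J293.Base
import Vale.Agent.Lib.P302.helper14.J293.K9

/-!
# P302: pieces of the mask search of the 293-item instance (part 12)
-/

namespace Vale.Agent.Lib.P302.helper14.J293

open Vale.Agent.Lib.P302.helper14 Vale.Agent.Lib.P302.helper8

theorem ok_lay38 : stepOKS rows cap lay38 lay39 = true := by decide +kernel

theorem ok_lay39 : stepOKS rows cap lay39 lay40 = true := by decide +kernel

theorem ok_lay40 : stepOKS rows cap lay40 lay41 = true := by decide +kernel

theorem ok_lay41 : stepOKS rows cap lay41 lay42 = true := by decide +kernel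

theorem ok_lay42 : stepOKS rows cap lay42 lay43 = true := by decide +kernel

theorem ok_lay43 : stepOKS rows cap lay43 lay44 = true := by decide +kernel

theorem ok_lay44 : stepOKS rows cap lay44 lay45 = true := by decide +kernel

theorem ok_lay45 : stepOKS rows cap lay45 lay46 = true := by decide +kernel

theorem ok_lay46 : stepOKS rows cap lay46 lay47 = true := by decide +kernel

theorem ok_lay47 : stepOKS rows cap lay47 lay48 = true := by decide +kernel

theorem ok_lay48 : stepOKS rows cap lay48 lay49 = true := by decide +kernel

end Vale.Agent.Lib.P302.helper14.J293
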