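import Mathlib
import Vale.Agent.Lib.P302.helper14.J293.Base
import Vale.Agent.Lib.P302.helper14.J293.K7

/-!
# P302: pieces of the mask search of the 293-item instance (part 10)
-/

namespace Vale.Agent.Lib.P302.helper14.J293

open Vale.Agent.Lib.P302.helper14 Vale.Agent.Lib.P302.helper8

theorem ok_lay27 : stepOKS rows cap lay27 lay28 = true := by decide +kernel

theorem ok_lay28 : stepOKS rows cap lay28 lay29 = true := by decide +kernel

theorem ok_lay29 : stepOKS rows cap lay29 lay30 = true := by decide +kernel

theorem ok_lay30 : stepOKS rows cap lay30 lay31 = true := by decide +kernel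

end Vale.Agent.Lib.P302.helper14.J293
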