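import Mathlib
import Vale.Agent.Lib.P302.helper14.J293.Base
import Vale.Agent.Lib.P302.helper14.J293.K10

/-!
# P302: pieces of the mask search of the 293-item instance (part 13)
-/

namespace Vale.Agent.Lib.P302.helper14.J293

open Vale.Agent.Lib.P302.helper14 Vale.Agent.Lib.P302.helper8

theorem ok_lay49 : stepOKS rows cap lay49 lay50 = true := by decide +kernel

theorem ok_lay50 : stepOKS rows cap lay50 lay51 = true := by decide +kernel

theorem ok_lay51 : stepOKS rows cap lay51 lay52 = true := by decide +kernel

theorem ok_lay52 : stepOKS rows cap lay52 lay53 = true := by decide +kernel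

end Vale.Agent.Lib.P302.helper14.J293
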