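import Mathlib
import Vale.Agent.Lib.P302.helper14.J293.Base
import Vale.Agent.Lib.P302.helper14.J293.K11

/-!
# P302: pieces of the mask search of the 293-item instance (part 14)
-/

namespace Vale.Agent.Lib.P302.helper14.J293

open Vale.Agent.Lib.P302.helper14 Vale.Agent.Lib.P302.helper8

theorem ok_lay53 : stepOKS rows cap lay53 lay54 = true := by decide +kernel

theorem ok_lay54 : stepOKS rows cap lay54 lay55 = true := by decide +kernel

theorem ok_lay55 : stepOKS rows cap lay55 lay56 = true := by decide +kernel

end Vale.Agent.Lib.P302.helper14.J293
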