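import Mathlib
import Vale.Agent.Lib.P302.helper14.J293.Base
import Vale.Agent.Lib.P302.helper14.J293.K12

/-!
# P302: pieces of the mask search of the 293-item instance (part 15)
-/

namespace Vale.Agent.Lib.P302.helper14.J293

open Vale.Agent.Lib.P302.helper14 Vale.Agent.Lib.P302.helper8

theorem ok_lay56 : stepOKS rows cap lay56 lay57 = true := by decide +kernel

theorem ok_lay57 : stepOKS rows cap lay57 lay58 = true := by decide +kernel

theorem ok_lay58 : stepOKS rows cap lay58 lay59 = true := by decide +kernel

theorem ok_lay59 : stepOKS rows cap lay59 lay60 = true := by decide +kernel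

theorem ok_lay60 : stepOKS rows cap lay60 lay61 = true := by decide +kernel

theorem ok_lay61 : stepOKS rows cap lay61 lay62 = true := by decide +kernel

theorem ok_lay62 : stepOKS rows cap lay62 lay63 = true := by decide +kernel

theorem ok_lay63 : stepOKS rows cap lay63 lay64 = true := by decide +kernel

theorem ok_lay64 : stepOKS rows cap lay64 lay65 = true := by decide +kernel

theorem ok_lay65 : stepOKS rows cap lay65 lay66 = true := by decide +kernel

theorem ok_lay66 : stepOKS rows cap lay66 lay67 = true := by decide +kernel

theorem ok_lay67 : stepOKS rows cap lay67 lay68 = true := by decide +kernel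

theorem ok_lay68 : stepOKS rows cap lay68 lay69 = true := by decide +kernel

theorem ok_lay69 : stepOKS rows cap lay69 lay70 = true := by decide +kernel

theorem ok_lay70 : stepOKS rows cap lay70 lay71 = true := by decide +kernel

end Vale.Agent.Lib.P302.helper14.J293
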