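import Mathlib
import Vale.Agent.Lib.P302.helper14.J293.Base
import Vale.Agent.Lib.P302.helper14.J293.K13

/-!
# P302: pieces of the mask search of the 293-item instance (part 16)
-/

namespace Vale.Agent.Lib.P302.helper14.J293

open Vale.Agent.Lib.P302.helper14 Vale.Agent.Lib.P302.helper8

theorem ok_lay71 : stepOKS rows cap lay71 lay72 = true := by decide +kernel

theorem ok_lay72 : stepOKS rows cap lay72 lay73 = true := by decide +kernel

theorem ok_lay73 : stepOKS rows cap lay73 lay74 = true := by decide +kernel

theorem ok_lay74 : stepOKS rows cap lay74 lay75 = true := by decide +kernel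

theorem ok_lay75 : stepOKS rows cap lay75 lay76 = true := by decide +kernel

theorem ok_lay76 : stepOKS rows cap lay76 lay77 = true := by decide +kernel

end Vale.Agent.Lib.P302.helper14.J293
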