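import Mathlib
import Vale.Agent.Lib.P302.helper14.J293.Base
import Vale.Agent.Lib.P302.helper14.J293.K14

/-!
# P302: pieces of the mask search of the 293-item instance (part 17)
-/

namespace Vale.Agent.Lib.P302.helper14.J293

open Vale.Agent.Lib.P302.helper14 Vale.Agent.Lib.P302.helper8

theorem ok_lay77 : stepOKS rows cap lay77 lay78 = true := by decide +kernel

theorem ok_lay78 : stepOKS rows cap lay78 lay79 = true := by decide +kernel

theorem ok_lay79 : stepOKS rows cap lay79 lay80 = true := by decide +kernel

theorem ok_lay80 : stepOKS rows cap lay80 lay81 = true := by decide +kernel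

theorem ok_lay81 : stepOKS rows cap lay81 lay82 = true := by decide +kernel

theorem ok_lay82 : stepOKS rows cap lay82 lay83 = true := by decide +kernel

theorem ok_lay83 : stepOKS rows cap lay83 lay84 = true := by decide +kernel

theorem ok_lay84 : stepOKS rows cap lay84 lay85 = true := by decide +kernel

theorem ok_lay85 : stepOKS rows cap lay85 lay86 = true := by decide +kernel

theorem ok_lay86 : stepOKS rows cap lay86 lay87 = true := by decide +kernel

theorem ok_lay87 : stepOKS rows cap lay87 lay88 = true := by decide +kernel

theorem ok_lay88 : stepOKS rows cap lay88 lay89 = true := by decide +kernel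

theorem ok_lay89 : stepOKS rows cap lay89 lay90 = true := by decide +kernel

theorem ok_lay90 : stepOKS rows cap lay90 lay91 = true := by decide +kernel

theorem ok_lay91 : stepOKS rows cap lay91 lay92 = true := by decide +kernel

theorem ok_lay92 : stepOKS rows cap lay92 lay93 = true := by decide +kernel

theorem ok_lay93 : stepOKS rows cap lay93 lay94 = true := by decide +kernel

theorem ok_lay94 : stepOKS rows cap lay94 lay95 = true := by decide +kernel

end Vale.Agent.Lib.P302.helper14.J293
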