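import Mathlib
import Vale.Agent.Lib.P302.helper14.J293.K0
import Vale.Agent.Lib.P302.helper14.J293.K1
import Vale.Agent.Lib.P302.helper14.J293.K2
import Vale.Agent.Lib.P302.helper14.J293.K3
import Vale.Agent.Lib.P302.helper14.J293.K4
import Vale.Agent.Lib.P302.helper14.J293.K5
import Vale.Agent.Lib.P302.helper14.J293.K6
import Vale.Agent.Lib.P302.helper14.J293.K7
import Vale.Agent.Lib.P302.helper14.J293.K8
import Vale.Agent.Lib.P302.helper14.J293.K9
import Vale.Agent.Lib.P302.helper14.J293.K10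
import Vale.Agent.Lib.P302.helper14.J293.K11
import Vale.Agent.Lib.P302.helper14.J293.K12
import Vale.Agent.Lib.P302.helper14.J293.K13
import Vale.Agent.Lib.P302.helper14.J293.K14
import Vale.Agent.Lib.P302.helper14.J293.K15
import Vale.Agent.Lib.P302.helper14.J293.K16
import Vale.Agent.Lib.P302.helper14.J293.K17

/-!
# P302: the mask search of the 293-item instance, put together

No state of any layer can be split into triples of total size at most `cap`.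
-/

namespace Vale.Agent.Lib.P302.helper14.J293

open Vale.Agent.Lib.P302.helper14 Vale.Agent.Lib.P302.helper8

theorem no95 : ∀ m ∈ lay95, ¬ TriPart cap (szs (sel rows m)) := nil_no rows cap

theorem no94 : ∀ m ∈ lay94, ¬ TriPart cap (szs (sel rows m)) :=
  stepOKS_sound rows_ok ok_lay94 no95

theorem no93 : ∀ m ∈ lay93, ¬ TriPart cap (szs (sel rows m)) :=
  stepOKS_sound rows_ok ok_lay93 no94

theorem no92 : ∀ m ∈ lay92, ¬ TriPart cap (szs (sel rows m)) :=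
  stepOKS_sound rows_ok ok_lay92 no93

theorem no91 : ∀ m ∈ lay91, ¬ TriPart cap (szs (sel rows m)) :=
  stepOKS_sound rows_ok ok_lay91 no92

theorem no90 : ∀ m ∈ lay90, ¬ TriPart cap (szs (sel rows m)) :=
  stepOKS_sound rows_ok ok_lay90 no91

theorem no89 : ∀ m ∈ lay89, ¬ TriPart cap (szs (sel rows m)) :=
  stepOKS_sound rows_ok ok_lay89 no90

theorem no88 : ∀ m ∈ lay88, ¬ TriPart cap (szs (sel rows m)) :=
  stepOKS_sound rows_ok ok_lay88 no89

theorem no87 : ∀ m ∈ lay87, ¬ TriPart cap (szs (sel rows m)) :=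
  stepOKS_sound rows_ok ok_lay87 no88

theorem no86 : ∀ m ∈ lay86, ¬ TriPart cap (szs (sel rows m)) :=
  stepOKS_sound rows_ok ok_lay86 no87

theorem no85 : ∀ m ∈ lay85, ¬ TriPart cap (szs (sel rows m)) :=
  stepOKS_sound rows_ok ok_lay85 no86

theorem no84 : ∀ m ∈ lay84, ¬ TriPart cap (szs (sel rows m)) :=
  stepOKS_sound rows_ok ok_lay84 no85

theorem no83 : ∀ m ∈ lay83, ¬ TriPart cap (szs (sel rows m)) :=
  stepOKS_sound rows_ok ok_lay83 no84

theorem no82 : ∀ m ∈ lay82, ¬ TriPart cap (szs (sel rows m)) :=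
  stepOKS_sound rows_ok ok_lay82 no83

theorem no81 : ∀ m ∈ lay81, ¬ TriPart cap (szs (sel rows m)) :=
  stepOKS_sound rows_ok ok_lay81 no82

theorem no80 : ∀ m ∈ lay80, ¬ TriPart cap (szs (sel rows m)) :=
  stepOKS_sound rows_ok ok_lay80 no81

theorem no79 : ∀ m ∈ lay79, ¬ TriPart cap (szs (sel rows m)) :=
  stepOKS_sound rows_ok ok_lay79 no80

theorem no78 : ∀ m ∈ lay78, ¬ TriPart cap (szs (sel rows m)) :=
  stepOKS_sound rows_ok ok_lay78 no79

theorem no77 : ∀ m ∈ lay77, ¬ TriPart cap (szs (sel rows m)) :=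
  stepOKS_sound rows_ok ok_lay77 no78

theorem no76 : ∀ m ∈ lay76, ¬ TriPart cap (szs (sel rows m)) :=
  stepOKS_sound rows_ok ok_lay76 no77

theorem no75 : ∀ m ∈ lay75, ¬ TriPart cap (szs (sel rows m)) :=
  stepOKS_sound rows_ok ok_lay75 no76

theorem no74 : ∀ m ∈ lay74, ¬ TriPart cap (szs (sel rows m)) :=
  stepOKS_sound rows_ok ok_lay74 no75

theorem no73 : ∀ m ∈ lay73, ¬ TriPart cap (szs (sel rows m)) :=
  stepOKS_sound rows_ok ok_lay73 no74

theorem no72 : ∀ m ∈ lay72, ¬ TriPart cap (szs (sel rows m)) :=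
  stepOKS_sound rows_ok ok_lay72 no73

theorem no71 : ∀ m ∈ lay71, ¬ TriPart cap (szs (sel rows m)) :=
  stepOKS_sound rows_ok ok_lay71 no72

theorem no70 : ∀ m ∈ lay70, ¬ TriPart cap (szs (sel rows m)) :=
  stepOKS_sound rows_ok ok_lay70 no71

theorem no69 : ∀ m ∈ lay69, ¬ TriPart cap (szs (sel rows m)) :=
  stepOKS_sound rows_ok ok_lay69 no70

theorem no68 : ∀ m ∈ lay68, ¬ TriPart cap (szs (sel rows m)) :=
  stepOKS_sound rows_ok ok_lay68 no69

theorem no67 : ∀ m ∈ lay67, ¬ TriPart cap (szs (sel rows m)) :=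
  stepOKS_sound rows_ok ok_lay67 no68

theorem no66 : ∀ m ∈ lay66, ¬ TriPart cap (szs (sel rows m)) :=
  stepOKS_sound rows_ok ok_lay66 no67

theorem no65 : ∀ m ∈ lay65, ¬ TriPart cap (szs (sel rows m)) :=
  stepOKS_sound rows_ok ok_lay65 no66

theorem no64 : ∀ m ∈ lay64, ¬ TriPart cap (szs (sel rows m)) :=
  stepOKS_sound rows_ok ok_lay64 no65

theorem no63 : ∀ m ∈ lay63, ¬ TriPart cap (szs (sel rows m)) :=
  stepOKS_sound rows_ok ok_lay63 no64

theorem no62 : ∀ m ∈ lay62, ¬ TriPart cap (szs (sel rows m)) :=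
  stepOKS_sound rows_ok ok_lay62 no63

theorem no61 : ∀ m ∈ lay61, ¬ TriPart cap (szs (sel rows m)) :=
  stepOKS_sound rows_ok ok_lay61 no62

theorem no60 : ∀ m ∈ lay60, ¬ TriPart cap (szs (sel rows m)) :=
  stepOKS_sound rows_ok ok_lay60 no61

theorem no59 : ∀ m ∈ lay59, ¬ TriPart cap (szs (sel rows m)) :=
  stepOKS_sound rows_ok ok_lay59 no60

theorem no58 : ∀ m ∈ lay58, ¬ TriPart cap (szs (sel rows m)) :=
  stepOKS_sound rows_ok ok_lay58 no59

theorem no57 : ∀ m ∈ lay57, ¬ TriPart cap (szs (sel rows m)) :=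
  stepOKS_sound rows_ok ok_lay57 no58

theorem no56 : ∀ m ∈ lay56, ¬ TriPart cap (szs (sel rows m)) :=
  stepOKS_sound rows_ok ok_lay56 no57

theorem no55 : ∀ m ∈ lay55, ¬ TriPart cap (szs (sel rows m)) :=
  stepOKS_sound rows_ok ok_lay55 no56

theorem no54 : ∀ m ∈ lay54, ¬ TriPart cap (szs (sel rows m)) :=
  stepOKS_sound rows_ok ok_lay54 no55

theorem no53 : ∀ m ∈ lay53, ¬ TriPart cap (szs (sel rows m)) :=
  stepOKS_sound rows_ok ok_lay53 no54

theorem no52 : ∀ m ∈ lay52, ¬ TriPart cap (szs (sel rows m)) :=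
  stepOKS_sound rows_ok ok_lay52 no53

theorem no51 : ∀ m ∈ lay51, ¬ TriPart cap (szs (sel rows m)) :=
  stepOKS_sound rows_ok ok_lay51 no52

theorem no50 : ∀ m ∈ lay50, ¬ TriPart cap (szs (sel rows m)) :=
  stepOKS_sound rows_ok ok_lay50 no51

theorem no49 : ∀ m ∈ lay49, ¬ TriPart cap (szs (sel rows m)) :=
  stepOKS_sound rows_ok ok_lay49 no50

theorem no48 : ∀ m ∈ lay48, ¬ TriPart cap (szs (sel rows m)) :=
  stepOKS_sound rows_ok ok_lay48 no49

theorem no47 : ∀ m ∈ lay47, ¬ TriPart cap (szs (sel rows m)) :=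
  stepOKS_sound rows_ok ok_lay47 no48

theorem no46 : ∀ m ∈ lay46, ¬ TriPart cap (szs (sel rows m)) :=
  stepOKS_sound rows_ok ok_lay46 no47

theorem no45 : ∀ m ∈ lay45, ¬ TriPart cap (szs (sel rows m)) :=
  stepOKS_sound rows_ok ok_lay45 no46

theorem no44 : ∀ m ∈ lay44, ¬ TriPart cap (szs (sel rows m)) :=
  stepOKS_sound rows_ok ok_lay44 no45

theorem no43 : ∀ m ∈ lay43, ¬ TriPart cap (szs (sel rows m)) :=
  stepOKS_sound rows_ok ok_lay43 no44

theorem no42 : ∀ m ∈ lay42, ¬ TriPart cap (szs (sel rows m)) :=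
  stepOKS_sound rows_ok ok_lay42 no43

theorem no41 : ∀ m ∈ lay41, ¬ TriPart cap (szs (sel rows m)) :=
  stepOKS_sound rows_ok ok_lay41 no42

theorem no40 : ∀ m ∈ lay40, ¬ TriPart cap (szs (sel rows m)) :=
  stepOKS_sound rows_ok ok_lay40 no41

theorem no39 : ∀ m ∈ lay39, ¬ TriPart cap (szs (sel rows m)) :=
  stepOKS_sound rows_ok ok_lay39 no40

theorem no38 : ∀ m ∈ lay38, ¬ TriPart cap (szs (sel rows m)) :=
  stepOKS_sound rows_ok ok_lay38 no39

theorem no37 : ∀ m ∈ lay37, ¬ TriPart cap (szs (sel rows m)) :=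
  stepOKS_sound rows_ok ok_lay37 no38

theorem no36 : ∀ m ∈ lay36, ¬ TriPart cap (szs (sel rows m)) :=
  stepOKS_sound rows_ok ok_lay36 no37

theorem no35 : ∀ m ∈ lay35, ¬ TriPart cap (szs (sel rows m)) :=
  stepOKS_sound rows_ok ok_lay35 no36

theorem no34 : ∀ m ∈ lay34, ¬ TriPart cap (szs (sel rows m)) :=
  stepOKS_sound rows_ok ok_lay34 no35

theorem no33 : ∀ m ∈ lay33, ¬ TriPart cap (szs (sel rows m)) :=
  stepOKS_sound rows_ok ok_lay33 no34

theorem no32 : ∀ m ∈ lay32, ¬ TriPart cap (szs (sel rows m)) :=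
  stepOKS_sound rows_ok ok_lay32 no33

theorem no31 : ∀ m ∈ lay31, ¬ TriPart cap (szs (sel rows m)) :=
  stepOKS_sound rows_ok ok_lay31 no32

theorem no30 : ∀ m ∈ lay30, ¬ TriPart cap (szs (sel rows m)) :=
  stepOKS_sound rows_ok ok_lay30 no31

theorem no29 : ∀ m ∈ lay29, ¬ TriPart cap (szs (sel rows m)) :=
  stepOKS_sound rows_ok ok_lay29 no30

theorem no28 : ∀ m ∈ lay28, ¬ TriPart cap (szs (sel rows m)) :=
  stepOKS_sound rows_ok ok_lay28 no29

theorem no27 : ∀ m ∈ lay27, ¬ TriPart cap (szs (sel rows m)) :=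
  stepOKS_sound rows_ok ok_lay27 no28

theorem no26 : ∀ m ∈ lay26, ¬ TriPart cap (szs (sel rows m)) :=
  stepOKS_sound rows_ok ok_lay26 no27

theorem no25 : ∀ m ∈ lay25, ¬ TriPart cap (szs (sel rows m)) :=
  stepOKS_sound rows_ok ok_lay25 no26

theorem no24 : ∀ m ∈ lay24, ¬ TriPart cap (szs (sel rows m)) :=
  stepOKS_sound rows_ok ok_lay24 no25

theorem no23 : ∀ m ∈ lay23, ¬ TriPart cap (szs (sel rows m)) :=
  stepOKS_sound rows_ok ok_lay23 no24

theorem no22 : ∀ m ∈ lay22, ¬ TriPart cap (szs (sel rows m)) :=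
  stepOKS_sound rows_ok ok_lay22 no23

theorem no21 : ∀ m ∈ lay21, ¬ TriPart cap (szs (sel rows m)) :=
  append_no (stepOKS_sound rows_ok ok_p21_0 no22)
    (stepOKS_sound rows_ok ok_p21_1 no22)

theorem no20 : ∀ m ∈ lay20, ¬ TriPart cap (szs (sel rows m)) :=
  append_no (stepOKS_sound rows_ok ok_p20_0 no21)
    (stepOKS_sound rows_ok ok_p20_1 no21)

theorem no19 : ∀ m ∈ lay19, ¬ TriPart cap (szs (sel rows m)) :=
  stepOKS_sound rows_ok ok_lay19 no20

theorem no18 : ∀ m ∈ lay18, ¬ TriPart cap (szs (sel rows m)) :=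
  stepOKS_sound rows_ok ok_lay18 no19

theorem no17 : ∀ m ∈ lay17, ¬ TriPart cap (szs (sel rows m)) :=
  stepOKS_sound rows_ok ok_lay17 no18

theorem no16 : ∀ m ∈ lay16, ¬ TriPart cap (szs (sel rows m)) :=
  stepOKS_sound rows_ok ok_lay16 no17

theorem no15 : ∀ m ∈ lay15, ¬ TriPart cap (szs (sel rows m)) :=
  stepOKS_sound rows_ok ok_lay15 no16

theorem no14 : ∀ m ∈ lay14, ¬ TriPart cap (szs (sel rows m)) :=
  stepOKS_sound rows_ok ok_lay14 no15

theorem no13 : ∀ m ∈ lay13, ¬ TriPart cap (szs (sel rows m)) :=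
  stepOKS_sound rows_ok ok_lay13 no14

theorem no12 : ∀ m ∈ lay12, ¬ TriPart cap (szs (sel rows m)) :=
  stepOKS_sound rows_ok ok_lay12 no13

theorem no11 : ∀ m ∈ lay11, ¬ TriPart cap (szs (sel rows m)) :=
  stepOKS_sound rows_ok ok_lay11 no12

theorem no10 : ∀ m ∈ lay10, ¬ TriPart cap (szs (sel rows m)) :=
  stepOKS_sound rows_ok ok_lay10 no11

theorem no9 : ∀ m ∈ lay9, ¬ TriPart cap (szs (sel rows m)) :=
  stepOKS_sound rows_ok ok_lay9 no10

theorem no8 : ∀ m ∈ lay8, ¬ TriPart cap (szs (sel rows m)) :=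
  stepOKS_sound rows_ok ok_lay8 no9

theorem no7 : ∀ m ∈ lay7, ¬ TriPart cap (szs (sel rows m)) :=
  stepOKS_sound rows_ok ok_lay7 no8

theorem no6 : ∀ m ∈ lay6, ¬ TriPart cap (szs (sel rows m)) :=
  stepOKS_sound rows_ok ok_lay6 no7

theorem no5 : ∀ m ∈ lay5, ¬ TriPart cap (szs (sel rows m)) :=
  stepOKS_sound rows_ok ok_lay5 no6

theorem no4 : ∀ m ∈ lay4, ¬ TriPart cap (szs (sel rows m)) :=
  stepOKS_sound rows_ok ok_lay4 no5

theorem no3 : ∀ m ∈ lay3, ¬ TriPart cap (szs (sel rows m)) :=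
  stepOKS_sound rows_ok ok_lay3 no4

theorem no2 : ∀ m ∈ lay2, ¬ TriPart cap (szs (sel rows m)) :=
  stepOKS_sound rows_ok ok_lay2 no3

theorem no1 : ∀ m ∈ lay1, ¬ TriPart cap (szs (sel rows m)) :=
  stepOKS_sound rows_ok ok_lay1 no2

theorem no0 : ∀ m ∈ lay0, ¬ TriPart cap (szs (sel rows m)) :=
  stepOKS_sound rows_ok ok_lay0 no1

end Vale.Agent.Lib.P302.helper14.J293
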